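import Mathlib

/-!
Exit points of rays from an interior point of the unit ball.
-/

set_option autoImplicit false

namespace Crest.Agent.R074

open Set Metric

variable {X : Type*} [NormedAddCommGroup X] [NormedSpace ℝ X]

/-- the point where the ray from `z` in direction `v` leaves the unit ball -/
noncomputable def exitPt (z v : X) : X := z + (gauge (ball (-z) 1) v)⁻¹ • v

lemma ball_mem_nhds_zero {z : X} (hz : ‖z‖ < 1) : ball (-z) 1 ∈ nhds (0 : X) :=
  isOpen_ball.mem_nhds (by simpa using hz)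

lemma gauge_ball_pos {z v : X} (hz : ‖z‖ < 1) (hv : v ≠ 0) : 0 < gauge (ball (-z) 1) v :=
  (gauge_pos (absorbent_nhds_zero (ball_mem_nhds_zero hz))
    ((NormedSpace.isVonNBounded_iff ℝ).mpr isBounded_ball)).mpr hv

lemma norm_exitPt {z v : X} (hz : ‖z‖ < 1) (hv : v ≠ 0) : ‖exitPt z v‖ = 1 := by
  have hp := gauge_ball_pos hz hv
  have h1 : gauge (ball (-z) 1) ((gauge (ball (-z) 1) v)⁻¹ • v) = 1 := by
    rw [gauge_smul_of_nonneg (inv_nonneg.mpr hp.le), smul_eq_mul, inv_mul_cancel₀ hp.ne']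
  rw [gauge_eq_one_iff_mem_frontier (convex_ball _ _) (ball_mem_nhds_zero hz),
    frontier_ball _ one_ne_zero, mem_sphere_iff_norm, sub_neg_eq_add, add_comm] at h1
  exact h1

lemma exists_exitPt_eq {z v : X} (hz : ‖z‖ < 1) (hv : v ≠ 0) :
    ∃ t : ℝ, 0 < t ∧ exitPt z v = z + t • v :=
  ⟨_, inv_pos.mpr (gauge_ball_pos hz hv), rfl⟩

lemma continuousOn_exitPt {z : X} (hz : ‖z‖ < 1) : ContinuousOn (exitPt z) {0}ᶜ := by
  have hc := continuous_gauge (convex_ball (-z) 1) (ball_mem_nhds_zero hz)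
  exact continuousOn_const.add ((hc.continuousOn.inv₀ fun v hv =>
    (gauge_ball_pos hz hv).ne').smul continuousOn_id)

lemma sub_ne_zero_of_norm {w y : X} (hw : ‖w‖ < 1) (hy : ‖y‖ = 1) : w - y ≠ 0 := by
  intro h
  rw [sub_eq_zero.mp h] at hw
  linarith

/-- the other end of the chord from `y` through `w` -/
lemma chord_spec {w y : X} (hw : ‖w‖ < 1) (hy : ‖y‖ = 1) :
    ‖exitPt w (w - y)‖ = 1 ∧
      (∃ u : ℝ, 0 ≤ u ∧ u ≤ 1 ∧ w = (1 - u) • exitPt w (w - y) + u • y) ∧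
      ‖y - exitPt w (w - y)‖ = ‖y - w‖ + ‖w - exitPt w (w - y)‖ := by
  have h0 := sub_ne_zero_of_norm hw hy
  obtain ⟨t, ht, he⟩ := exists_exitPt_eq hw h0
  refine ⟨norm_exitPt hw h0, ⟨t / (1 + t), by positivity, ?_, ?_⟩, ?_⟩
  · rw [div_le_one (by positivity)]; linarith
  · rw [he]
    have h1 : (1 - t / (1 + t)) = (1 + t)⁻¹ := by field_simp; ring
    have h2 : (1 + t) • ((1 - t / (1 + t)) • (w + t • (w - y)) + (t / (1 + t)) • y) =
        (1 + t) • w := by
      rw [h1, smul_add, smul_smul, smul_smul, mul_inv_cancel₀ (by positivity),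
        mul_div_cancel₀ _ (by positivity)]
      module
    exact (smul_right_injective X (by positivity : (1 + t) ≠ 0) h2).symm
  · rw [he]
    have h1 : y - (w + t • (w - y)) = (1 + t) • (y - w) := by module
    have h2 : w - (w + t • (w - y)) = t • (y - w) := by module
    rw [h1, h2, norm_smul, norm_smul, Real.norm_eq_abs, Real.norm_eq_abs, abs_of_pos ht,
      abs_of_pos (by positivity)]
    ring

/-- normalisation -/
noncomputable def nrm (v : X) : X := ‖v‖⁻¹ • v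

lemma norm_nrm {v : X} (hv : v ≠ 0) : ‖nrm v‖ = 1 := by
  rw [nrm, norm_smul, norm_inv, norm_norm, inv_mul_cancel₀ (norm_ne_zero_iff.mpr hv)]

lemma norm_nrm_le (v : X) : ‖nrm v‖ ≤ 1 := by
  by_cases hv : v = 0
  · simp [nrm, hv]
  · exact (norm_nrm hv).le

lemma norm_smul_nrm (v : X) : ‖v‖ • nrm v = v := by
  by_cases hv : v = 0
  · simp [nrm, hv]
  · rw [nrm, smul_smul, mul_inv_cancel₀ (norm_ne_zero_iff.mpr hv), one_smul]

lemma norm_nrm_sub {v : X} (hv : v ≠ 0) (h1 : ‖v‖ ≤ 1) : ‖nrm v - v‖ = 1 - ‖v‖ := by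
  have : nrm v - v = (1 - ‖v‖) • nrm v := by
    rw [sub_smul, one_smul, norm_smul_nrm]
  rw [this, norm_smul, norm_nrm hv, Real.norm_eq_abs, abs_of_nonneg (by linarith), mul_one]

lemma continuousOn_nrm : ContinuousOn (nrm : X → X) {0}ᶜ :=
  (continuous_norm.continuousOn.inv₀ fun _ hv => norm_ne_zero_iff.mpr hv).smul continuousOn_id

lemma exists_exitPt_eq_nrm {z v : X} (hz : ‖z‖ < 1) (hv : v ≠ 0) :
    ∃ A : ℝ, 0 ≤ A ∧ exitPt z v = z + A • nrm v := by
  obtain ⟨t, ht, he⟩ := exists_exitPt_eq hz hv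
  exact ⟨t * ‖v‖, by positivity, by rw [he, mul_smul, norm_smul_nrm]⟩

end Crest.Agent.R074
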