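import Mathlib

/-!
The local contradiction on a near-extremal chord.
-/

set_option autoImplicit false

namespace Crest.Agent.R074

lemma scalar_ii (lam u a A e1 dq ρ : ℝ) (hl0 : 0 < lam) (hl1 : lam < 1) (hu0 : 0 < u)
    (hA : A = a - e1) (hA2 : A ≤ 2) (he1 : 8 * ρ < e1) (hρ0 : 0 ≤ ρ)
    (h1 : u ≤ 1 - lam) (h2 : u ≤ lam) (h3 : dq ≤ 1 - lam + (1 - u + ρ) * A)
    (G3 : a ≤ 1 - lam + lam * dq) (h4 : 1 - lam ≤ u * dq) : False := by
  have hρA : ρ * A ≤ ρ * 2 := mul_le_mul_of_nonneg_left hA2 hρ0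
  have h5 : (1 / 2) * e1 ≤ (1 - u) * e1 := mul_le_mul_of_nonneg_right (by linarith) (by linarith)
  have h6 : dq - (1 - lam) < (1 - u) * a := by
    have : (1 - u) * A = (1 - u) * a - (1 - u) * e1 := by rw [hA]; ring
    linarith
  have h7 : 1 - lam < u * a := by
    have : (1 - u) * (1 - lam) < (1 - u) * (u * a) := by
      linarith [mul_lt_mul_of_pos_left h6 hu0]
    exact lt_of_mul_lt_mul_left this (by linarith)
  have h8 : a * (1 - lam + lam * u) ≤ (1 - lam) * (1 + lam) := by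
    linarith [mul_lt_mul_of_pos_left h6 hl0]
  have h9 : 0 < 1 - lam + lam * u := by linarith [mul_pos hl0 hu0]
  have h10 : (1 - lam) * (1 - lam + lam * u) < (1 - lam) * (u * (1 + lam)) := by
    linarith [mul_lt_mul_of_pos_right h7 h9, mul_le_mul_of_nonneg_left h8 hu0.le]
  have h11 := lt_of_mul_lt_mul_left h10 (by linarith)
  linarith

lemma scalar_iii (lam u A B eb dp ρ : ℝ) (hl0 : 0 < lam) (hl1 : lam < 1)
    (hA2 : A ≤ 2) (hB0 : 0 < B) (hB2 : B ≤ 2) (hbar : eb ≤ (1 - u) * B - u * A)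
    (he : 8 * ρ < eb) (hρ0 : 0 ≤ ρ) (h2 : lam ≤ u) (h3 : 1 - lam ≤ (u + ρ) * A)
    (h4 : dp ≤ 1 - lam + (u + ρ) * B) (G2 : B ≤ 1 - lam + lam * dp) : False := by
  have hρA : ρ * A ≤ ρ * 2 := mul_le_mul_of_nonneg_left hA2 hρ0
  have hρB : ρ * B ≤ ρ * 2 := mul_le_mul_of_nonneg_left hB2 hρ0
  have h5 := mul_le_mul_of_nonneg_left h4 hl0.le
  have h6 : (1 + lam) * (1 - lam) ≤ (1 + lam) * (u * A + 2 * ρ) :=
    mul_le_mul_of_nonneg_left (by linarith) (by linarith)
  have h7 := mul_le_mul_of_nonneg_left hρB hl0.le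
  have h8 := mul_le_mul_of_nonneg_left hbar (show 0 ≤ 1 + lam by linarith)
  have h9 : 0 ≤ B * (u - lam) := mul_nonneg hB0.le (by linarith)
  have h10 : lam * ρ ≤ 1 * ρ := mul_le_mul_of_nonneg_right hl1.le hρ0
  have h11 : 0 ≤ lam * eb := mul_nonneg hl0.le (by linarith)
  linarith

lemma scalar_iv (lam u A B e1 e2 ρ α : ℝ) (hu0 : 0 < u) (hu1 : u < 1)
    (hA' : A ≤ 2 * (1 - u) - e1) (hB' : B ≤ 2 * u + e2) (hA2 : A ≤ 2) (hB2 : B ≤ 2)
    (he1 : α + 8 * ρ < e1) (he1' : e1 ≤ 1) (he2 : e2 - e1 ≤ α)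
    (hρ0 : 0 ≤ ρ) (hα0 : 0 ≤ α) (h1 : u ≤ 1 - lam) (h2 : lam ≤ u)
    (h3 : 1 - lam ≤ (1 - u + ρ) * A) (h4 : 1 - lam ≤ (u + ρ) * B) : False := by
  have hρA : ρ * A ≤ ρ * 2 := mul_le_mul_of_nonneg_left hA2 hρ0
  have hρB : ρ * B ≤ ρ * 2 := mul_le_mul_of_nonneg_left hB2 hρ0
  have hv : 0 < 1 - u := by linarith
  have h5 : 1 - lam ≤ (1 - u) * (2 * (1 - u) - e1) + 2 * ρ := by
    linarith [mul_le_mul_of_nonneg_left hA' hv.le]
  have h6 : 1 - lam ≤ u * (2 * u + e2) + 2 * ρ := by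
    linarith [mul_le_mul_of_nonneg_left hB' hu0.le]
  rcases le_total u (1 / 2) with h7 | h7
  · have h8 : 1 ≤ 2 * (1 - u) - e1 + 4 * ρ := by
      have : (1 - u) * 1 ≤ (1 - u) * (2 * (1 - u) - e1 + 4 * ρ) := by
        linarith [mul_le_mul_of_nonneg_right h7 hρ0]
      exact le_of_mul_le_mul_left this hv
    have h10 := mul_le_mul_of_nonneg_left h5 hu0.le
    have h11 := mul_le_mul_of_nonneg_left h6 hv.le
    have h12 : u * (1 - u) * (e2 - e1) ≤ α / 4 := by
      have h13 : u * (1 - u) ≤ 1 / 4 := by linarith [mul_self_nonneg (2 * u - 1)]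
      linarith [mul_le_mul_of_nonneg_left he2 (mul_pos hu0 hv).le,
        mul_le_mul_of_nonneg_right h13 hα0]
    have h13 : (1 - u) * (1 - 2 * u) ≤ α / 4 + 2 * ρ := by linarith
    have h14 : (1 / 2) * (1 - 2 * u) ≤ (1 - u) * (1 - 2 * u) :=
      mul_le_mul_of_nonneg_right (by linarith) (by linarith)
    linarith
  · have h8 : (1 - u) * (2 * (1 - u) - e1) ≤ (1 - u) * (1 - e1) :=
      mul_le_mul_of_nonneg_left (by linarith) hv.le
    have h9 : (1 - u) * (1 - e1) ≤ (1 / 2) * (1 - e1) :=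
      mul_le_mul_of_nonneg_right (by linarith) (by linarith)
    linarith

lemma scalar_contra (lam u l A B e1 e2 dp dq ρ M α : ℝ)
    (hl0 : 0 < lam) (hl1 : lam < 1) (hu0 : 0 < u) (hu1 : u < 1) (hl2 : l ≤ 2)
    (hA : A = (1 - u) * l - e1) (hB : B = u * l + e2) (hA2 : A ≤ 2)
    (hB0 : 0 < B) (hB2 : B ≤ 2)
    (he1 : M - α ≤ e1) (he1' : e1 ≤ M) (he2 : M - α ≤ e2) (he2' : e2 ≤ M)
    (hρ0 : 0 ≤ ρ) (hα0 : 0 ≤ α) (hsmall : 2 * α + 8 * ρ < M) (hM1 : M ≤ 1)
    (F1a : 1 - lam ≤ u → 1 - lam ≤ (u + ρ) * A) (F1a' : u ≤ 1 - lam → 1 - lam ≤ (1 - u + ρ) * A)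
    (F1b : 1 - lam ≤ u → dp ≤ 1 - lam + (u + ρ) * B)
    (F3a : lam ≤ u → 1 - lam ≤ (u + ρ) * B)
    (F3b : u ≤ lam → dq ≤ 1 - lam + (1 - u + ρ) * A)
    (G1 : l ≤ dp + dq) (G2 : B ≤ 1 - lam + lam * dp) (G3 : (1 - u) * l ≤ 1 - lam + lam * dq)
    (G4 : u ≤ lam → 1 - lam ≤ u * dq) : False := by
  have hρA : ρ * A ≤ ρ * 2 := mul_le_mul_of_nonneg_left hA2 hρ0
  have hρB : ρ * B ≤ ρ * 2 := mul_le_mul_of_nonneg_left hB2 hρ0
  have hv : 0 < 1 - u := by linarith
  have hbar : (1 - u) * B - u * A = (1 - u) * e2 + u * e1 := by rw [hA, hB]; ring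
  have hbar' : M - α ≤ (1 - u) * B - u * A := by
    rw [hbar]
    linarith [mul_le_mul_of_nonneg_left he1 hu0.le, mul_le_mul_of_nonneg_left he2 hv.le]
  have hsum : A + B - α ≤ l := by rw [hA, hB]; linarith
  rcases le_total (1 - lam) u with h1 | h1
  · rcases le_total u lam with h2 | h2
    · have := F1a h1
      have := F1b h1
      have := F3b h2
      linarith
    · exact scalar_iii lam u A B (M - α) dp ρ hl0 hl1 hA2 hB0 hB2 hbar' (by linarith) hρ0 h2
        (F1a h1) (F1b h1) G2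
  · rcases le_total u lam with h2 | h2
    · exact scalar_ii lam u ((1 - u) * l) A e1 dq ρ hl0 hl1 hu0 hA hA2 (by linarith) hρ0 h1 h2
        (F3b h2) G3 (G4 h2)
    · exact scalar_iv lam u A B e1 e2 ρ α hu0 hu1
        (by rw [hA]; linarith [mul_le_mul_of_nonneg_left hl2 hv.le])
        (by rw [hB]; linarith [mul_le_mul_of_nonneg_left hl2 hu0.le]) hA2 hB2 (by linarith)
        (by linarith) (by linarith) hρ0 hα0 h1 h2 (F1a' h1) (F3a h2)

variable {X Y : Type*} [NormedAddCommGroup X] [NormedSpace ℝ X]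
  [NormedAddCommGroup Y] [NormedSpace ℝ Y]

lemma norm_comb_le (a b : ℝ) (ha : 0 ≤ a) (hb : 0 ≤ b) (x y : X) :
    ‖a • x + b • y‖ ≤ a * ‖x‖ + b * ‖y‖ := by
  have := norm_add_le (a • x) (b • y)
  rwa [norm_smul, norm_smul, Real.norm_eq_abs, Real.norm_eq_abs, abs_of_nonneg ha,
    abs_of_nonneg hb] at this

lemma line_convex (z D : X) {x y : ℝ} (hx : 0 ≤ x) (hxy : x ≤ y) :
    y * ‖z + x • D‖ ≤ (y - x) * ‖z‖ + x * ‖z + y • D‖ := by
  have h := norm_comb_le (y - x) x (by linarith) hx z (z + y • D)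
  have h1 : (y - x) • z + x • (z + y • D) = y • (z + x • D) := by module
  rwa [h1, norm_smul, Real.norm_eq_abs, abs_of_nonneg (by linarith)] at h

lemma slope_le (z D : X) {x y y' σ : ℝ} (hx : 0 < x) (hxy : x ≤ y) (hy : y < y')
    (h : ‖z + y' • D‖ - ‖z + y • D‖ ≤ σ * (y' - y)) : ‖z + x • D‖ ≤ ‖z‖ + σ * x := by
  have hy0 : 0 < y := by linarith
  have h1 := line_convex z D hx.le hxy
  have h2 := line_convex z D hy0.le hy.le
  have h3 : (y' - y) * (‖z + y • D‖ - ‖z‖) ≤ (y' - y) * (σ * y) := by nlinarith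
  have h4 := le_of_mul_le_mul_left h3 (by linarith)
  have h5 : y * ‖z + x • D‖ ≤ y * (‖z‖ + σ * x) := by nlinarith
  exact le_of_mul_le_mul_left h5 hy0

lemma test_one (z D D' : X) {c u A B C ε σ : ℝ} (hc : 1 < c) (hcu : 1 ≤ c * u) (hu1 : u < 1)
    (hA : 0 < A) (he : 0 < (1 - u) * B - u * A) (hε : 0 ≤ ε)
    (hT : ‖z + ((c - 1) * B) • D'‖ ≤ ‖z + (c * u * A) • D + ((c * u - 1) * B) • D'‖ + C)
    (hdom : ‖z + ((c - 1) * B) • D‖ ≤ ‖z + ((c - 1) * B) • D'‖ + ε)
    (hσ : C + c * ε ≤ σ * (c * ((1 - u) * B - u * A))) :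
    ‖z + A • D‖ ≤ ‖z‖ + σ * A ∧ ‖z + ((c - 1) * B) • D'‖ ≤ ‖z‖ + σ * ((c - 1) * B) := by
  have hu' : 0 < 1 - u := by linarith
  obtain ⟨y, hy⟩ : ∃ y, (1 - u) * y = (c - 1) * u * A := ⟨(c - 1) * u * A / (1 - u), by field_simp⟩
  set W := ‖z + ((c - 1) * B) • D'‖ with hW
  have hAy : A ≤ y := by
    have : (1 - u) * A ≤ (1 - u) * y := by rw [hy]; nlinarith
    exact le_of_mul_le_mul_left this hu'
  have hδ : (1 - u) * ((c - 1) * B - y) = (c - 1) * ((1 - u) * B - u * A) := by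
    rw [mul_sub, hy]; ring
  have hyB : y < (c - 1) * B := by
    have : (1 - u) * 0 < (1 - u) * ((c - 1) * B - y) := by
      rw [hδ]; nlinarith
    linarith [lt_of_mul_lt_mul_left this hu'.le]
  have h1 := norm_comb_le (c * u - 1) (c * (1 - u)) (by linarith) (by nlinarith)
    (z + ((c - 1) * B) • D') (z + y • D)
  have h2 : (c * u - 1) • (z + ((c - 1) * B) • D') + (c * (1 - u)) • (z + y • D) =
      (c - 1) • (z + (c * u * A) • D + ((c * u - 1) * B) • D') := by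
    have : (c * (1 - u)) • (y • D) = ((c - 1) * (c * u * A)) • D := by
      rw [smul_smul, mul_assoc, hy]; congr 1; ring
    rw [smul_add (c * (1 - u)), this]; module
  rw [h2, norm_smul, Real.norm_eq_abs, abs_of_pos (by linarith), ← hW] at h1
  have h3 : c * (1 - u) * (W - ‖z + y • D‖) ≤ (c - 1) * C := by nlinarith
  have hc0 : 0 < c * (1 - u) := by nlinarith
  have h4 : (c - 1) * (C + c * ε) ≤ c * (1 - u) * (σ * ((c - 1) * B - y)) := by
    have : c * (1 - u) * (σ * ((c - 1) * B - y)) =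
        (c - 1) * (σ * (c * ((1 - u) * B - u * A))) := by
      calc _ = c * σ * ((1 - u) * ((c - 1) * B - y)) := by ring
        _ = _ := by rw [hδ]; ring
    rw [this]
    exact mul_le_mul_of_nonneg_left hσ (by linarith)
  have h5 : c * (1 - u) * ε ≤ (c - 1) * (c * ε) := by
    have h6 : c * (1 - u) ≤ (c - 1) * c := by nlinarith
    nlinarith
  have h6 : W - ‖z + y • D‖ + ε ≤ σ * ((c - 1) * B - y) := by
    have : c * (1 - u) * (W - ‖z + y • D‖ + ε) ≤ c * (1 - u) * (σ * ((c - 1) * B - y)) := by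
      nlinarith
    exact le_of_mul_le_mul_left this hc0
  have h7 : ‖z + ((c - 1) * B) • D‖ - ‖z + y • D‖ ≤ σ * ((c - 1) * B - y) := by linarith
  refine ⟨slope_le z D hA hAy hyB h7, ?_⟩
  have h8 := slope_le z D (hA.trans_le hAy) le_rfl hyB h7
  nlinarith

lemma test_three (z D : X) {β δ V C ε σ : ℝ} (hβ : 0 < β) (hδ : 0 < δ) (hε : 0 ≤ ε)
    (hT : V ≤ ‖z + (-β) • D‖ + C) (hdom : ‖z + (-(β + δ)) • D‖ ≤ V + ε)
    (hσ : C + ε ≤ σ * δ) :
    ‖z + (-β) • D‖ ≤ ‖z‖ + σ * β ∧ V ≤ ‖z‖ + σ * (β + δ) := by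
  have e : ∀ t : ℝ, (-t) • D = t • (-D) := fun t => by rw [neg_smul, smul_neg]
  rw [e] at hT hdom ⊢
  have h := slope_le z (-D) (σ := σ) hβ le_rfl (show β < β + δ by linarith) (by
    rw [add_sub_cancel_left]; linarith)
  exact ⟨h, by nlinarith⟩

/-- distortion bound for a pair of points and their images -/
def Dist (M : ℝ) (x y : X) (x' y' : Y) : Prop :=
  ‖x - y‖ = ‖x' - y'‖ ∧
    ∀ a b : ℝ, 0 ≤ a → 0 ≤ b → |‖a • x - b • y‖ - ‖a • x' - b • y'‖| ≤ max a b * M

set_option maxHeartbeats 1000000 in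
theorem core_contra (s p q D D' : X) (s' p' q' : Y) (lam u A B M α ε ρ R : ℝ)
    (hs : ‖s‖ = 1) (hp : ‖p‖ = 1) (hq : ‖q‖ = 1) (hs' : ‖s'‖ = 1) (hp' : ‖p'‖ = 1)
    (hq' : ‖q'‖ = 1) (hD : ‖D‖ = 1) (hD' : ‖D'‖ = 1)
    (hsp : Dist M s p s' p') (hsq : Dist M s q s' q') (hqp : Dist M q p q' p')
    (hl0 : 0 < lam) (hl1 : lam < 1) (hu0 : 0 ≤ u) (hu1 : u ≤ 1) (hA0 : 0 ≤ A) (hB0 : 0 ≤ B)
    (hqD : q = lam • s + A • D) (hpD : p = lam • s - B • D')
    (hw : lam • s' = (1 - u) • p' + u • q')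
    (hext : M - α ≤ ‖q' - lam • s'‖ - A)
    (hR : 6 ≤ R * (1 - lam))
    (hdom : ∀ t : ℝ, 0 ≤ t → t ≤ 1 → ∀ β : ℝ, |β| ≤ R →
      ‖lam • s + β • D‖ ≤ ‖lam • s + β • ((1 - t) • D + t • D')‖ + ε)
    (hε : 0 ≤ ε) (hρ0 : 0 ≤ ρ) (hα0 : 0 ≤ α) (hsmall : 2 * α + 8 * ρ < M) (hM1 : M ≤ 1)
    (hρ : α + ε ≤ ρ * (M - α)) : False := by
  set z := lam • s with hz
  set l := ‖q' - p'‖ with hl
  have hzn : ‖z‖ = lam := by rw [hz, norm_smul, hs, Real.norm_eq_abs, abs_of_pos hl0, mul_one]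
  have hwn : ‖lam • s'‖ = lam := by
    rw [norm_smul, hs', Real.norm_eq_abs, abs_of_pos hl0, mul_one]
  have hl2 : l ≤ 2 := (norm_sub_le _ _).trans (by linarith)
  have ha' : ‖q' - lam • s'‖ = (1 - u) * l := by
    have : q' - lam • s' = (1 - u) • (q' - p') := by rw [hw]; module
    rw [this, norm_smul, Real.norm_eq_abs, abs_of_nonneg (by linarith)]
  have hb' : ‖lam • s' - p'‖ = u * l := by
    have : lam • s' - p' = u • (q' - p') := by rw [hw]; module
    rw [this, norm_smul, Real.norm_eq_abs, abs_of_nonneg hu0]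
  have hAn : ‖q - z‖ = A := by
    rw [hqD, add_sub_cancel_left, norm_smul, hD, Real.norm_eq_abs, abs_of_nonneg hA0, mul_one]
  have hBn : ‖z - p‖ = B := by
    rw [hpD, sub_sub_cancel, norm_smul, hD', Real.norm_eq_abs, abs_of_nonneg hB0, mul_one]
  have hAlo : 1 - lam ≤ A := by
    have := norm_sub_norm_le q z
    linarith
  have hBlo : 1 - lam ≤ B := by
    have := norm_sub_norm_le p z
    rw [norm_sub_rev] at this
    linarith
  have hA2 : A ≤ 2 := by have := norm_sub_le q z; linarith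
  have hB2 : B ≤ 2 := by have := norm_sub_le z p; linarith
  have halo : 1 - lam ≤ (1 - u) * l := by
    have := norm_sub_norm_le q' (lam • s')
    linarith
  have hblo : 1 - lam ≤ u * l := by
    have := norm_sub_norm_le p' (lam • s')
    rw [norm_sub_rev] at this
    linarith
  have hu0' : 1 - lam ≤ 2 * u := by linarith [mul_le_mul_of_nonneg_left hl2 hu0]
  have hu1' : 1 - lam ≤ 2 * (1 - u) := by
    linarith [mul_le_mul_of_nonneg_left hl2 (sub_nonneg.mpr hu1)]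
  have hup : 0 < u := by linarith
  have hum : u < 1 := by linarith
  have hmax : max lam 1 = 1 := max_eq_right hl1.le
  have he1' : (1 - u) * l - A ≤ M := by
    have h := hsq.2 lam 1 hl0.le zero_le_one
    rw [hmax, one_smul, one_smul, one_mul, norm_sub_rev, norm_sub_rev (lam • s'), ← hz, hAn,
      ha'] at h
    linarith [(abs_le.mp h).1]
  have he2' : B - u * l ≤ M := by
    have h := hsp.2 lam 1 hl0.le zero_le_one
    rw [hmax, one_smul, one_smul, one_mul, ← hz, hBn, hb'] at h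
    linarith [(abs_le.mp h).2]
  have hlAB : l ≤ A + B := by
    rw [hl, ← hqp.1, ← hAn, ← hBn]
    exact norm_sub_le_norm_sub_add_norm_sub _ _ _
  rw [ha'] at hext
  have he2 : M - α ≤ B - u * l := by linarith
  set eb := (1 - u) * B - u * A with heb
  have hebe : eb = (1 - u) * (B - u * l) + u * ((1 - u) * l - A) := by rw [heb]; ring
  have heblo : M - α ≤ eb := by
    rw [hebe]
    linarith [mul_le_mul_of_nonneg_left hext hu0, mul_le_mul_of_nonneg_left he2 (sub_nonneg.mpr hu1)]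
  have hebhi : eb ≤ M := by
    rw [hebe]
    linarith [mul_le_mul_of_nonneg_left he1' hu0,
      mul_le_mul_of_nonneg_left he2' (sub_nonneg.mpr hu1)]
  have hebp : 0 < eb := by linarith
  have hM0 : 0 < M := by linarith
  have hσ : ∀ v : ℝ, 0 ≤ v → v ≤ 1 → v * M + ε ≤ (v + ρ) * eb := by
    intro v hv0 hv1
    linarith only [mul_le_mul_of_nonneg_left heblo hρ0, mul_le_mul_of_nonneg_left heblo hv0, hρ,
      mul_le_mul_of_nonneg_right hv1 hα0]
  have hRc : ∀ c : ℝ, 0 ≤ c → c * (1 - lam) ≤ 2 → 3 * c ≤ R := by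
    intro c hc0 hc
    have : (3 * c) * (1 - lam) ≤ R * (1 - lam) := by linarith
    exact le_of_mul_le_mul_right this (by linarith)
  -- the first test
  have T1 : ∀ c v C1 C2 : ℝ, 1 < c → 1 ≤ c * u → c * (1 - lam) ≤ 2 → 0 ≤ v → v ≤ 1 →
      C1 + C2 ≤ c * v * M →
      ‖(c * lam) • s - (c - 1) • p‖ ≤ ‖(c * lam) • s' - (c - 1) • p'‖ + C1 →
      ‖(c * u) • q' - (c * u - 1) • p'‖ ≤ ‖(c * u) • q - (c * u - 1) • p‖ + C2 →
      1 - lam ≤ (v + ρ) * A ∧
        ‖(c * lam) • s - (c - 1) • p‖ ≤ lam + (v + ρ) * ((c - 1) * B) := by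
    intro c v C1 C2 hc hcu hc2 hv0 hv1 hC h1 h2
    have e1 : (c * lam) • s - (c - 1) • p = z + ((c - 1) * B) • D' := by
      rw [hpD, hz]; module
    have e2 : (c * lam) • s' - (c - 1) • p' = (c * u) • q' - (c * u - 1) • p' := by
      rw [mul_smul, hw]; module
    have e3 : (c * u) • q - (c * u - 1) • p = z + (c * u * A) • D + ((c * u - 1) * B) • D' := by
      rw [hpD, hqD]; module
    rw [e2] at h1
    rw [e3] at h2
    rw [e1] at h1 ⊢
    have hd := hdom 1 zero_le_one le_rfl ((c - 1) * B) (by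
      rw [abs_of_nonneg (mul_nonneg (by linarith) hB0)]
      have := hRc c (by linarith) hc2
      linarith only [this, hc, mul_le_mul_of_nonneg_left hB2 (show 0 ≤ c - 1 by linarith)])
    rw [sub_self, zero_smul, zero_add, one_smul] at hd
    have h3 := test_one z D D' (C := C1 + C2) (σ := v + ρ) hc hcu hum (by linarith) hebp hε
      (by linarith) hd (by
        have := mul_le_mul_of_nonneg_left (hσ v hv0 hv1) (show 0 ≤ c by linarith)
        rw [← heb]
        linarith only [this, hC])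
    rw [← hqD, hq, hzn] at h3
    exact ⟨by linarith [h3.1], h3.2⟩
  -- the second test
  have T3 : ∀ c v C1 C2 : ℝ, 1 < c → 1 ≤ c * (1 - u) → c * (1 - lam) ≤ 2 → 0 ≤ v → v ≤ 1 →
      C1 + C2 ≤ c * v * M →
      ‖(c * lam) • s' - (c - 1) • q'‖ ≤ ‖(c * lam) • s - (c - 1) • q‖ + C1 →
      ‖(c * (1 - u) - 1) • q - (c * (1 - u)) • p‖ ≤
        ‖(c * (1 - u) - 1) • q' - (c * (1 - u)) • p'‖ + C2 →
      ‖(c * lam) • s - (c - 1) • q‖ ≤ lam + (v + ρ) * ((c - 1) * A) ∧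
        ‖(c * (1 - u) - 1) • q - (c * (1 - u)) • p‖ ≤ lam + (v + ρ) * ((c - 1) * A + c * eb) := by
    intro c v C1 C2 hc hcu hc2 hv0 hv1 hC h1 h2
    have hβ : 0 < (c - 1) * A := mul_pos (by linarith) (by linarith)
    have hδ : 0 < c * eb := mul_pos (by linarith) hebp
    have e1 : (c * lam) • s - (c - 1) • q = z + (-((c - 1) * A)) • D := by
      rw [hqD, hz]; module
    have e2 : (c * (1 - u) - 1) • q' - (c * (1 - u)) • p' = -((c * lam) • s' - (c - 1) • q') := by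
      rw [mul_smul c lam, hw]; module
    obtain ⟨t, ht⟩ : ∃ t, ((c - 1) * A + c * eb) * t = c * (1 - u) * B :=
      ⟨c * (1 - u) * B / ((c - 1) * A + c * eb), by field_simp⟩
    have ht' : ((c - 1) * A + c * eb) * (1 - t) = (c * (1 - u) - 1) * A := by
      rw [mul_sub, ht, heb]; ring
    have ht0 : 0 ≤ t := by
      have : ((c - 1) * A + c * eb) * 0 ≤ ((c - 1) * A + c * eb) * t := by
        rw [ht, mul_zero]; exact mul_nonneg (by linarith) hB0
      exact le_of_mul_le_mul_left this (by linarith)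
    have ht1 : t ≤ 1 := by
      have : ((c - 1) * A + c * eb) * 0 ≤ ((c - 1) * A + c * eb) * (1 - t) := by
        rw [ht', mul_zero]; exact mul_nonneg (by linarith) hA0
      linarith [le_of_mul_le_mul_left this (by linarith)]
    have e3 : (c * (1 - u) - 1) • q - (c * (1 - u)) • p =
        -(z + (-((c - 1) * A + c * eb)) • ((1 - t) • D + t • D')) := by
      rw [smul_add, smul_smul, smul_smul, neg_mul, neg_mul, ht, ht', hpD, hqD]; module
    have hd := hdom t ht0 ht1 (-((c - 1) * A + c * eb)) (by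
      rw [abs_neg, abs_of_nonneg (by linarith)]
      have := hRc c (by linarith) hc2
      linarith only [this, hc, mul_le_mul_of_nonneg_left hA2 (show 0 ≤ c - 1 by linarith),
        mul_le_mul_of_nonneg_left (hebhi.trans hM1) (show 0 ≤ c by linarith)])
    rw [e2, norm_neg] at h2
    rw [e3, norm_neg] at h2 ⊢
    rw [e1] at h1 ⊢
    have h3 := test_three z D (C := C1 + C2) (σ := v + ρ) hβ hδ hε (by linarith) hd (by
        have := mul_le_mul_of_nonneg_left (hσ v hv0 hv1) (show 0 ≤ c by linarith)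
        linarith only [this, hC, mul_le_mul_of_nonneg_right hc.le hε])
    rwa [hzn] at h3
  have hη : 0 < 1 - lam := by linarith
  obtain ⟨c0, hc0⟩ : ∃ c0, c0 * (1 - lam) = 1 := ⟨1 / (1 - lam), by field_simp⟩
  have hc0l : c0 * lam = c0 - 1 := by linarith
  have hc0p : 0 < c0 := pos_of_mul_pos_left (by rw [hc0]; exact one_pos) hη.le
  have hc01 : 1 < c0 := by linarith only [hc0l, mul_pos hc0p hl0]
  have F1 : 1 - lam ≤ u → 1 - lam ≤ (u + ρ) * A ∧ ‖s - p‖ ≤ 1 - lam + (u + ρ) * B := by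
    intro h
    have hcu : 1 ≤ c0 * u := by linarith only [hc0, mul_le_mul_of_nonneg_left h hc0p.le]
    have h1 := hqp.2 (c0 * u) (c0 * u - 1) (by linarith) (by linarith)
    rw [max_eq_left (by linarith)] at h1
    have e1 : ‖(c0 * lam) • s - (c0 - 1) • p‖ = (c0 - 1) * ‖s - p‖ := by
      rw [hc0l, ← smul_sub, norm_smul, Real.norm_eq_abs, abs_of_pos (by linarith)]
    have e2 : ‖(c0 * lam) • s' - (c0 - 1) • p'‖ = (c0 - 1) * ‖s - p‖ := by
      rw [hc0l, ← smul_sub, norm_smul, Real.norm_eq_abs, abs_of_pos (by linarith), hsp.1]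
    have h2 := T1 c0 u 0 (c0 * u * M) hc01 hcu (by linarith) hu0 hu1 (by linarith)
      (by rw [e1, e2]; linarith) (by linarith [(abs_le.mp h1).1])
    refine ⟨h2.1, ?_⟩
    have h3 := h2.2
    rw [e1] at h3
    have h4 : (c0 - 1) * ‖s - p‖ ≤ (c0 - 1) * (1 - lam + (u + ρ) * B) := by
      linarith only [h3, hc0]
    exact le_of_mul_le_mul_left h4 (by linarith)
  have F1a' : u ≤ 1 - lam → 1 - lam ≤ (1 - u + ρ) * A := by
    intro h
    obtain ⟨c, hc⟩ : ∃ c, c * u = 1 := ⟨1 / u, by field_simp⟩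
    have hcp : 0 < c := pos_of_mul_pos_left (by rw [hc]; exact one_pos) hu0
    have hc1 : 1 < c := by linarith only [hc, mul_lt_mul_of_pos_left hum hcp]
    have h1 := hsp.2 (c * lam) (c - 1) (by positivity) (by linarith)
    rw [max_eq_right (by linarith only [hc, mul_le_mul_of_nonneg_left h hcp.le])] at h1
    refine (T1 c (1 - u) ((c - 1) * M) 0 hc1 hc.ge
      (by linarith only [hc, mul_le_mul_of_nonneg_left hu0' hcp.le]) (by linarith) (by linarith)
      (by rw [mul_sub c, hc, mul_one, add_zero]) (by linarith [(abs_le.mp h1).2]) ?_).1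
    rw [hc]; simp [hq, hq']
  have F3a : lam ≤ u → 1 - lam ≤ (u + ρ) * B := by
    intro h
    obtain ⟨c, hc⟩ : ∃ c, c * (1 - u) = 1 := ⟨1 / (1 - u), by
      have : 1 - u ≠ 0 := by linarith
      field_simp⟩
    have hcp : 0 < c := pos_of_mul_pos_left (by rw [hc]; exact one_pos) (sub_nonneg.mpr hu1)
    have hc1 : 1 < c := by linarith only [hc, mul_pos hcp hup]
    have hcu : c * u = c - 1 := by linarith only [hc]
    have h1 := hsq.2 (c * lam) (c - 1) (by positivity) (by linarith)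
    rw [max_eq_right (by linarith only [hc, mul_le_mul_of_nonneg_left h hcp.le])] at h1
    have h2 := (T3 c u ((c - 1) * M) 0 hc1 hc.ge
      (by linarith only [hc, mul_le_mul_of_nonneg_left hu1' hcp.le]) hu0 hu1
      (by rw [hcu, add_zero]) (by linarith [(abs_le.mp h1).1]) (by rw [hc]; simp [hp, hp'])).2
    have h3 : (c - 1) * A + c * eb = B := by
      rw [heb]
      have : c * u = c - 1 := by linarith
      calc _ = (c - 1) * A + (c * (1 - u)) * B - (c * u) * A := by ring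
        _ = B := by rw [hc, this]; ring
    rw [hc, h3] at h2
    simp only [sub_self, zero_smul, one_smul, zero_sub, norm_neg, hp] at h2
    linarith
  have F3b : u ≤ lam → ‖s - q‖ ≤ 1 - lam + (1 - u + ρ) * A := by
    intro h
    have hcu : 1 ≤ c0 * (1 - u) := by linarith only [hc0, mul_le_mul_of_nonneg_left h hc0p.le]
    have h1 := hqp.2 (c0 * (1 - u) - 1) (c0 * (1 - u)) (by linarith) (by linarith)
    rw [max_eq_right (by linarith)] at h1
    have e1 : ‖(c0 * lam) • s - (c0 - 1) • q‖ = (c0 - 1) * ‖s - q‖ := by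
      rw [hc0l, ← smul_sub, norm_smul, Real.norm_eq_abs, abs_of_pos (by linarith)]
    have e2 : ‖(c0 * lam) • s' - (c0 - 1) • q'‖ = (c0 - 1) * ‖s - q‖ := by
      rw [hc0l, ← smul_sub, norm_smul, Real.norm_eq_abs, abs_of_pos (by linarith), hsq.1]
    have h3 := (T3 c0 (1 - u) 0 (c0 * (1 - u) * M) hc01 hcu (by linarith) (by linarith)
      (by linarith) (by linarith) (by rw [e1, e2]; linarith) (by linarith [(abs_le.mp h1).2])).1
    rw [e1] at h3
    have h4 : (c0 - 1) * ‖s - q‖ ≤ (c0 - 1) * (1 - lam + (1 - u + ρ) * A) := by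
      linarith only [h3, hc0]
    exact le_of_mul_le_mul_left h4 (by linarith)
  have G1 : l ≤ ‖s - p‖ + ‖s - q‖ := by
    rw [hl, ← hqp.1, add_comm, norm_sub_rev s q]
    exact norm_sub_le_norm_sub_add_norm_sub _ _ _
  have G2 : B ≤ 1 - lam + lam * ‖s - p‖ := by
    have h1 := norm_comb_le (1 - lam) lam hη.le hl0.le (-p) (s - p)
    have h2 : (1 - lam) • (-p) + lam • (s - p) = z - p := by rw [hz]; module
    rwa [h2, hBn, norm_neg, hp, mul_one] at h1
  have G3 : (1 - u) * l ≤ 1 - lam + lam * ‖s - q‖ := by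
    have h1 := norm_comb_le (1 - lam) lam hη.le hl0.le q' (q' - s')
    have h2 : (1 - lam) • q' + lam • (q' - s') = q' - lam • s' := by module
    rwa [h2, ha', hq', mul_one, norm_sub_rev, ← hsq.1] at h1
  have G4 : u ≤ lam → 1 - lam ≤ u * ‖s - q‖ := by
    intro h
    have h1 := norm_comb_le (lam - u) u (by linarith) hu0 s' (s' - q')
    have h2 : (lam - u) • s' + u • (s' - q') = lam • s' - u • q' - u • s' + u • s' := by module
    have h3 : (lam - u) • s' + u • (s' - q') = (1 - u) • p' := by rw [h2, hw]; module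
    rw [h3, norm_smul, Real.norm_eq_abs, abs_of_pos (by linarith), hp', hs', ← hsq.1] at h1
    linarith only [h1]
  exact scalar_contra lam u l A B ((1 - u) * l - A) (B - u * l) ‖s - p‖ ‖s - q‖ ρ M α hl0 hl1 hup
    hum hl2 (by ring) (by ring) hA2 (by linarith) hB2 hext he1' he2 he2' hρ0 hα0
    hsmall hM1 (fun h => (F1 h).1) F1a' (fun h => (F1 h).2) F3a F3b G1 G2 G3 G4

end Crest.Agent.R074
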