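import Mathlib
import Crest.Agent.Lib.Brouwer.Basic

/-!
A Schauder-type selection lemma: a direction `v` that dominates its image `g v` for the convex
potentials `v ↦ ‖z + β • v‖`.
-/

set_option autoImplicit false

namespace Crest.Agent.R074

open Set

variable {X : Type*} [NormedAddCommGroup X] [NormedSpace ℝ X]

lemma clm_le_one {φ : X →L[ℝ] ℝ} (hφ : ‖φ‖ ≤ 1) {v : X} (hv : ‖v‖ ≤ 1) : φ v ≤ 1 := by
  have h1 := φ.le_opNorm v
  have h2 : φ v ≤ ‖φ v‖ := le_abs_self _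
  nlinarith [norm_nonneg φ, norm_nonneg v]

lemma clm_le_norm {φ : X →L[ℝ] ℝ} (hφ : ‖φ‖ ≤ 1) (v : X) : φ v ≤ ‖v‖ := by
  have h1 := φ.le_opNorm v
  have h2 : φ v ≤ ‖φ v‖ := le_abs_self _
  nlinarith [norm_nonneg φ, norm_nonneg v]

lemma norm_sum_smul_le {ι : Type*} [Fintype ι] (w : ι → ℝ) (hw : ∀ i, 0 ≤ w i)
    (hs : ∑ i, w i = 1) (D : ι → X) (hD : ∀ i, ‖D i‖ ≤ 1) : ‖∑ i, w i • D i‖ ≤ 1 := by
  calc ‖∑ i, w i • D i‖ ≤ ∑ i, ‖w i • D i‖ := norm_sum_le _ _
    _ ≤ ∑ i, w i := Finset.sum_le_sum fun i _ => by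
        rw [norm_smul, Real.norm_eq_abs, abs_of_nonneg (hw i)]
        nlinarith [hw i, hD i]
    _ = 1 := hs

lemma le_clm_sum {ι : Type*} [Fintype ι] (w : ι → ℝ) (hw : ∀ i, 0 ≤ w i)
    (hs : ∑ i, w i = 1) (D : ι → X) (φ : X →L[ℝ] ℝ) (a : ℝ) (hD : ∀ i, a ≤ φ (D i)) :
    a ≤ φ (∑ i, w i • D i) := by
  rw [map_sum]
  calc a = ∑ i, w i * a := by rw [← Finset.sum_mul, hs, one_mul]
    _ ≤ _ := Finset.sum_le_sum fun i _ => by
        rw [map_smul, smul_eq_mul]
        exact mul_le_mul_of_nonneg_left (hD i) (hw i)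

lemma vertex_of_clm_sum {ι : Type*} [Fintype ι] (w : ι → ℝ) (k : ℝ) (hk : 0 < k)
    (hw : ∀ i, k ≤ w i) (hs : ∑ i, w i = 1) (D : ι → X) (hD : ∀ i, ‖D i‖ ≤ 1)
    (φ : X →L[ℝ] ℝ) (hφ : ‖φ‖ ≤ 1) (a : ℝ) (ha : 1 - a ≤ φ (∑ i, w i • D i)) (i : ι) :
    1 - a / k ≤ φ (D i) := by
  have h1 : ∑ j, w j * (1 - φ (D j)) ≤ a := by
    rw [map_sum] at ha
    simp only [map_smul, smul_eq_mul] at ha
    simp only [mul_sub, mul_one, Finset.sum_sub_distrib, hs]
    linarith
  have h2 : w i * (1 - φ (D i)) ≤ ∑ j, w j * (1 - φ (D j)) :=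
    Finset.single_le_sum (f := fun j => w j * (1 - φ (D j)))
      (fun j _ => mul_nonneg (hk.le.trans (hw j)) (sub_nonneg.mpr (clm_le_one hφ (hD j))))
      (Finset.mem_univ i)
  have h3 : 0 ≤ 1 - φ (D i) := sub_nonneg.mpr (clm_le_one hφ (hD i))
  have h4 : k * (1 - φ (D i)) ≤ a := by nlinarith [hw i]
  have h5 : 1 - φ (D i) ≤ a / k := by rw [le_div_iff₀ hk]; linarith
  linarith

lemma norm_add_smul_le (z v v' : X) (β β' : ℝ) (hv' : ‖v'‖ ≤ 1) :
    ‖z + β • v‖ ≤ ‖z + β' • v'‖ + |β| * ‖v - v'‖ + |β - β'| := by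
  have : z + β • v = (z + β' • v') + β • (v - v') + (β - β') • v' := by module
  rw [this]
  refine (norm_add_le _ _).trans (add_le_add ((norm_add_le _ _).trans ?_) ?_)
  · rw [norm_smul, Real.norm_eq_abs]
  · rw [norm_smul, Real.norm_eq_abs]
    nlinarith [abs_nonneg (β - β')]

set_option maxHeartbeats 1000000 in
/-- one-parameter version of the selection lemma -/
theorem select_aux (L ε R γs θ : ℝ) (hL : 1 ≤ L) (hε : 0 < ε) (hR : 0 < R) (hγ : 0 < γs)
    (hγ' : γs ≤ 1 / 2) (hθ0 : 0 ≤ θ) (hθ1 : θ ≤ 1) :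
    ∃ α0 > 0, ∀ (z D0 : X) (g : X → X) (α : ℝ), 0 < α → α ≤ α0 → ‖z‖ ≤ 1 → ‖D0‖ = 1 →
      ContinuousOn g {0}ᶜ → (∀ v, ‖g v‖ ≤ 1) →
      (∀ (v : X) (γ : ℝ) (φ : X →L[ℝ] ℝ), 0 ≤ γ → γ ≤ 1 / 2 → ‖v‖ ≤ 1 → ‖φ‖ ≤ 1 → 1 - γ ≤ φ v →
        1 - γ ≤ φ D0 → ∃ ψ : X →L[ℝ] ℝ, ‖ψ‖ ≤ 1 ∧ 1 - L * (α + γ) ≤ ψ v ∧
          1 - L * (α + γ) ≤ ψ (g v)) →
      ∃ (v : X) (φ : X →L[ℝ] ℝ), ‖v‖ ≤ 1 ∧ ‖φ‖ ≤ 1 ∧ 1 - γs ≤ φ v ∧ 1 - γs ≤ φ D0 ∧
        ∀ β : ℝ, |β| ≤ R → ‖z + β • v‖ ≤ ‖z + β • ((1 - θ) • v + θ • g v)‖ + ε := by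
  classical
  set ε1 := ε / 6 with hε1
  have hε1p : 0 < ε1 := by positivity
  set κ := min 1 (ε1 / R) with hκ
  have hκp : 0 < κ := lt_min one_pos (by positivity)
  have hκ1 : κ ≤ 1 := min_le_left _ _
  have hκR : κ * R ≤ ε1 := by
    have : κ ≤ ε1 / R := min_le_right _ _
    rwa [le_div_iff₀ hR] at this
  obtain ⟨J, hJs, hJf, hJc⟩ := finite_cover_balls_of_compact (isCompact_Icc (a := -R) (b := R)) hε1p
  have : Fintype J := hJf.fintype
  obtain ⟨T, -, hTf, hTc⟩ := finite_cover_balls_of_compact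
    (isCompact_closedBall (0 : J → ℝ) (1 + R)) hε1p
  have : Fintype T := hTf.fintype
  set N := Fintype.card T with hN
  set n0 : ℝ := (Fintype.card (Option T) : ℝ) with hn0
  have hn0p : 1 ≤ n0 := by
    rw [hn0, Fintype.card_option]; push_cast; linarith [Nat.cast_nonneg (α := ℝ) (Fintype.card T)]
  set κ0 := κ / n0 with hκ0
  have hκ0p : 0 < κ0 := by positivity
  have hκ01 : κ0 ≤ 1 := by rw [hκ0, div_le_one (by linarith)]; linarith
  set Λ := 2 * L / κ0 with hΛ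
  have hΛ1 : 1 ≤ Λ := by rw [hΛ, le_div_iff₀ hκ0p]; linarith
  refine ⟨γs / Λ ^ N, by positivity, ?_⟩
  intro z D0 g α hα hα0 hz hD0 hg hg1 hP
  let Φ : X → J → ℝ := fun v j => ‖z + (j : ℝ) • v‖
  have hΦc : Continuous Φ := by
    refine continuous_pi fun j => ?_
    simp only [Φ]; fun_prop
  have hΦb : ∀ v, ‖v‖ ≤ 1 → Φ v ∈ Metric.closedBall (0 : J → ℝ) (1 + R) := by
    intro v hv
    rw [mem_closedBall_zero_iff, pi_norm_le_iff_of_nonneg (by positivity)]
    intro j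
    have hj : |(j : ℝ)| ≤ R := abs_le.mpr (hJs j.2)
    simp only [Φ, norm_norm]
    refine (norm_add_le _ _).trans (add_le_add hz ?_)
    rw [norm_smul, Real.norm_eq_abs]
    nlinarith [abs_nonneg (j : ℝ), norm_nonneg v]
  let w : (Option T → ℝ) → Option T → ℝ := fun x i => (1 - κ) * x i + κ0
  have hw0 : ∀ x ∈ stdSimplex ℝ (Option T), ∀ i, κ0 ≤ w x i := by
    intro x hx i
    have := hx.1 i
    simp only [w]; nlinarith
  have hw1 : ∀ x ∈ stdSimplex ℝ (Option T), ∑ i, w x i = 1 := by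
    intro x hx
    simp only [w, Finset.sum_add_distrib, ← Finset.mul_sum, hx.2, Finset.sum_const,
      Finset.card_univ, nsmul_eq_mul]
    rw [← hn0, hκ0]; field_simp; ring
  let G : X → X := fun v => (1 - θ) • v + θ • g v
  have hG1 : ∀ v, ‖v‖ ≤ 1 → ‖G v‖ ≤ 1 := by
    intro v hv
    refine (norm_add_le _ _).trans ?_
    rw [norm_smul, norm_smul, Real.norm_eq_abs, Real.norm_eq_abs, abs_of_nonneg hθ0,
      abs_of_nonneg (by linarith)]
    nlinarith [hg1 v]
  have hγn : ∀ n ≤ N, α * Λ ^ n ≤ γs := by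
    intro n hn
    have h1 : Λ ^ n ≤ Λ ^ N := pow_le_pow_right₀ hΛ1 hn
    rw [le_div_iff₀ (by positivity)] at hα0
    nlinarith
  by_contra hcon
  have key : ∀ n : ℕ, ∃ (D : Option T → X) (I : Finset T) (φ : X →L[ℝ] ℝ), I.card = n ∧
      D none = D0 ∧ (∀ i, ‖D i‖ ≤ 1) ∧ (∀ t ∈ I, dist (Φ (D (some t))) (t : J → ℝ) < ε1) ∧
      ‖φ‖ ≤ 1 ∧ ∀ i, 1 - α * Λ ^ n ≤ φ (D i) := by
    intro n
    induction n with
    | zero =>
      obtain ⟨φ, hφ1, hφ2⟩ := exists_dual_vector'' ℝ D0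
      refine ⟨fun _ => D0, ∅, φ, rfl, rfl, fun _ => hD0.le, by simp, hφ1, fun _ => ?_⟩
      have : φ D0 = 1 := by rw [hφ2, hD0]; simp
      rw [this]; simp only [pow_zero]; linarith
    | succ n ih =>
      obtain ⟨D, I, φ, hI, hD0', hD1, hDt, hφ, hφD⟩ := ih
      have hnN : n ≤ N := by rw [← hI]; exact Finset.card_le_univ I
      have hγn' := hγn n hnN
      have hpow : 1 ≤ Λ ^ n := one_le_pow₀ hΛ1
      let V : (Option T → ℝ) → X := fun x => ∑ i, w x i • D i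
      have hV1 : ∀ x ∈ stdSimplex ℝ (Option T), ‖V x‖ ≤ 1 := fun x hx =>
        norm_sum_smul_le _ (fun i => hκ0p.le.trans (hw0 x hx i)) (hw1 x hx) D hD1
      have hVφ : ∀ x ∈ stdSimplex ℝ (Option T), 1 - α * Λ ^ n ≤ φ (V x) := fun x hx =>
        le_clm_sum _ (fun i => hκ0p.le.trans (hw0 x hx i)) (hw1 x hx) D φ _ hφD
      by_cases hall : ∀ x ∈ stdSimplex ℝ (Option T), ∃ t ∈ I,
          dist (Φ (G (V x))) (t : J → ℝ) < ε1
      · exfalso
        apply hcon
        have hVc : Continuous V := by simp only [V, w]; fun_prop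
        have hV0 : MapsTo V (stdSimplex ℝ (Option T)) {0}ᶜ := by
          intro x hx h0
          have h1 := hVφ x hx
          rw [mem_singleton_iff.mp h0, map_zero] at h1
          linarith
        have hGc : ContinuousOn (fun x => G (V x)) (stdSimplex ℝ (Option T)) :=
          (hVc.continuousOn.const_smul _).add ((hg.comp hVc.continuousOn hV0).const_smul _)
        obtain ⟨x, hx, hsupp⟩ := Crest.Agent.Lib.Brouwer.exists_support_subset
          (fun x i => max 0 (2 * ε1 - dist (Φ (D i)) (Φ (G (V x))))) (fun i =>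
            continuousOn_const.sup (continuousOn_const.sub
              (continuous_dist.comp_continuousOn (continuousOn_const.prodMk
                (hΦc.comp_continuousOn hGc)))))
          (fun x _ i => le_max_left _ _) (by
            intro x hx
            obtain ⟨t, ht, ht'⟩ := hall x hx
            refine ⟨some t, lt_max_of_lt_right ?_⟩
            have := dist_triangle_right (Φ (D (some t))) (Φ (G (V x))) (t : J → ℝ)
            linarith [hDt t ht])
        refine ⟨V x, φ, hV1 x hx, hφ, by linarith [hVφ x hx], by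
          rw [← hD0']; linarith [hφD none], ?_⟩
        intro β hβ
        obtain ⟨j, hj, hjβ⟩ : ∃ j ∈ J, β ∈ Metric.ball j ε1 := by
          simpa using hJc (abs_le.mp hβ)
        rw [Metric.mem_ball, Real.dist_eq] at hjβ
        let U : X := ∑ i, x i • D i
        have hU1 : ‖U‖ ≤ 1 := norm_sum_smul_le _ hx.1 hx.2 D hD1
        have hVU : ‖V x - U‖ ≤ 2 * κ := by
          have h1 : V x - U = κ • (∑ i, n0⁻¹ • D i - U) := by
            simp only [V, U, w, smul_sub, Finset.smul_sum, ← Finset.sum_sub_distrib]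
            refine Finset.sum_congr rfl fun i _ => ?_
            rw [hκ0, div_eq_mul_inv]; module
          have h2 : ‖∑ i, n0⁻¹ • D i‖ ≤ 1 := by
            refine norm_sum_smul_le (fun _ => n0⁻¹) (fun _ => by positivity) ?_ D hD1
            simp only [Finset.sum_const, Finset.card_univ, nsmul_eq_mul]
            rw [← hn0]; field_simp
          rw [h1, norm_smul, Real.norm_eq_abs, abs_of_pos hκp]
          have := norm_sub_le (∑ i, n0⁻¹ • D i) U
          nlinarith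
        have h1 := norm_add_smul_le z (V x) U β j hU1
        have h2 : ‖z + j • U‖ ≤ ‖z + j • G (V x)‖ + 2 * ε1 := by
          have h3 : z + j • U = ∑ i, x i • (z + j • D i) := by
            simp only [U, smul_add, Finset.sum_add_distrib, ← Finset.sum_smul, hx.2, one_smul,
              Finset.smul_sum, smul_comm j]
          rw [h3]
          calc _ ≤ ∑ i, ‖x i • (z + j • D i)‖ := norm_sum_le _ _
            _ ≤ ∑ i, x i * (‖z + j • G (V x)‖ + 2 * ε1) := Finset.sum_le_sum fun i _ => by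
              rw [norm_smul, Real.norm_eq_abs, abs_of_nonneg (hx.1 i)]
              rcases (hx.1 i).eq_or_lt with h | h
              · rw [← h]; simp
              · refine mul_le_mul_of_nonneg_left ?_ h.le
                have h4 := hsupp i h
                rw [lt_max_iff] at h4
                have h5 : dist (Φ (D i)) (Φ (G (V x))) < 2 * ε1 := by
                  rcases h4 with h4 | h4 <;> linarith
                have h6 := dist_le_pi_dist (Φ (D i)) (Φ (G (V x))) ⟨j, hj⟩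
                rw [Real.dist_eq] at h6
                have h7 := le_abs_self (Φ (D i) ⟨j, hj⟩ - Φ (G (V x)) ⟨j, hj⟩)
                simp only [Φ] at h6 h7
                linarith
            _ = _ := by rw [← Finset.sum_mul, hx.2, one_mul]
        have h3 := norm_add_smul_le z (G (V x)) (G (V x)) j β (hG1 _ (hV1 x hx))
        rw [sub_self, norm_zero, mul_zero, add_zero, abs_sub_comm] at h3
        have h4 : |β| * ‖V x - U‖ ≤ R * (2 * κ) :=
          mul_le_mul hβ hVU (norm_nonneg _) hR.le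
        change ‖z + β • V x‖ ≤ ‖z + β • G (V x)‖ + ε
        nlinarith
      · push Not at hall
        obtain ⟨x, hx, hxI⟩ := hall
        obtain ⟨t, ht, ht'⟩ : ∃ t ∈ T, Φ (G (V x)) ∈ Metric.ball t ε1 := by
          simpa using hTc (hΦb _ (hG1 _ (hV1 x hx)))
        rw [Metric.mem_ball] at ht'
        have htI : (⟨t, ht⟩ : T) ∉ I := fun h => absurd ht' (not_lt.mpr (hxI _ h))
        obtain ⟨ψ, hψ1, hψ2, hψ3⟩ := hP (V x) (α * Λ ^ n) φ (by positivity) (by linarith)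
          (hV1 x hx) hφ (hVφ x hx) (by rw [← hD0']; exact hφD none)
        have ha : L * (α + α * Λ ^ n) / κ0 ≤ α * Λ ^ (n + 1) := by
          rw [pow_succ, hΛ, div_le_iff₀ hκ0p]
          have : α * (Λ ^ n * (2 * L / κ0)) * κ0 = 2 * L * (α * Λ ^ n) := by field_simp
          rw [← hΛ] at this ⊢
          rw [this]
          nlinarith [mul_le_mul_of_nonneg_left hpow hα.le]
        have hb : L * (α + α * Λ ^ n) ≤ L * (α + α * Λ ^ n) / κ0 := by
          rw [le_div_iff₀ hκ0p]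
          have : 0 ≤ L * (α + α * Λ ^ n) := by positivity
          nlinarith
        refine ⟨Function.update D (some ⟨t, ht⟩) (G (V x)), insert ⟨t, ht⟩ I, ψ,
          by rw [Finset.card_insert_of_notMem htI, hI], by simp [hD0'], fun i => ?_,
          fun t' ht'' => ?_, hψ1, fun i => ?_⟩
        · by_cases hi : i = some ⟨t, ht⟩
          · rw [hi, Function.update_self]; exact hG1 _ (hV1 x hx)
          · rw [Function.update_of_ne hi]; exact hD1 i
        · by_cases hi : t' = ⟨t, ht⟩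
          · rw [hi, Function.update_self]; exact ht'
          · rw [Function.update_of_ne (by simpa using hi)]
            exact hDt t' ((Finset.mem_insert.mp ht'').resolve_left hi)
        · by_cases hi : i = some ⟨t, ht⟩
          · rw [hi, Function.update_self]
            simp only [G, map_add, map_smul, smul_eq_mul]
            nlinarith
          · rw [Function.update_of_ne hi]
            have := vertex_of_clm_sum (w x) κ0 hκ0p (hw0 x hx) (hw1 x hx) D hD1 ψ hψ1 _ hψ2 i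
            linarith
  obtain ⟨D, I, φ, hI, -⟩ := key (N + 1)
  have := Finset.card_le_univ I
  omega

/-- The selection lemma. -/
theorem select (L ε R γs : ℝ) (hL : 1 ≤ L) (hε : 0 < ε) (hR : 0 < R) (hγ : 0 < γs)
    (hγ' : γs ≤ 1 / 2) :
    ∃ α0 > 0, ∀ (z D0 : X) (g : X → X) (α : ℝ), 0 < α → α ≤ α0 → ‖z‖ ≤ 1 → ‖D0‖ = 1 →
      ContinuousOn g {0}ᶜ → (∀ v, ‖g v‖ ≤ 1) →
      (∀ (v : X) (γ : ℝ) (φ : X →L[ℝ] ℝ), 0 ≤ γ → γ ≤ 1 / 2 → ‖v‖ ≤ 1 → ‖φ‖ ≤ 1 → 1 - γ ≤ φ v →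
        1 - γ ≤ φ D0 → ∃ ψ : X →L[ℝ] ℝ, ‖ψ‖ ≤ 1 ∧ 1 - L * (α + γ) ≤ ψ v ∧
          1 - L * (α + γ) ≤ ψ (g v)) →
      ∃ (v : X) (φ : X →L[ℝ] ℝ), ‖v‖ ≤ 1 ∧ ‖φ‖ ≤ 1 ∧ 1 - γs ≤ φ v ∧ 1 - γs ≤ φ D0 ∧
        ∀ s : ℝ, 0 ≤ s → s ≤ 1 → ∀ β : ℝ, |β| ≤ R →
          ‖z + β • v‖ ≤ ‖z + β • ((1 - s) • v + s • g v)‖ + ε := by
  set θ := min 1 (ε / (2 * R)) with hθ
  have hθp : 0 < θ := lt_min one_pos (by positivity)
  have hθ1 : θ ≤ 1 := min_le_left _ _
  have hθR : θ * (2 * R) ≤ ε := by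
    have : θ ≤ ε / (2 * R) := min_le_right _ _
    rwa [le_div_iff₀ (by positivity)] at this
  obtain ⟨α0, hα0, H⟩ := select_aux (X := X) L (ε * θ) R γs θ hL (by positivity) hR hγ hγ'
    hθp.le hθ1
  refine ⟨α0, hα0, fun z D0 g α hα hαα hz hD0 hg hg1 hP => ?_⟩
  obtain ⟨v, φ, hv, hφ, h1, h2, h3⟩ := H z D0 g α hα hαα hz hD0 hg hg1 hP
  refine ⟨v, φ, hv, hφ, h1, h2, fun s hs0 hs1 β hβ => ?_⟩
  rcases le_total s θ with hs | hs
  · have h4 : z + β • v = (z + β • ((1 - s) • v + s • g v)) + (β * s) • (v - g v) := by module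
    have h5 : ‖(β * s) • (v - g v)‖ ≤ ε := by
      rw [norm_smul, Real.norm_eq_abs, abs_mul, abs_of_nonneg hs0]
      have h6 : ‖v - g v‖ ≤ 2 := (norm_sub_le _ _).trans (by linarith [hg1 v])
      have h7 : |β| * s ≤ R * θ := mul_le_mul hβ hs hs0 hR.le
      have h8 : 0 ≤ |β| * s := by positivity
      nlinarith
    have h9 := norm_add_le (z + β • ((1 - s) • v + s • g v)) ((β * s) • (v - g v))
    rw [← h4] at h9
    linarith
  · have hsp : 0 < s := lt_of_lt_of_le hθp hs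
    have h4 := h3 β hβ
    have h5 : s • (z + β • ((1 - θ) • v + θ • g v)) =
        (s - θ) • (z + β • v) + θ • (z + β • ((1 - s) • v + s • g v)) := by module
    have h6 : s * ‖z + β • ((1 - θ) • v + θ • g v)‖ ≤
        (s - θ) * ‖z + β • v‖ + θ * ‖z + β • ((1 - s) • v + s • g v)‖ := by
      have h7 := norm_add_le ((s - θ) • (z + β • v)) (θ • (z + β • ((1 - s) • v + s • g v)))
      rw [← h5, norm_smul, norm_smul, norm_smul, Real.norm_eq_abs, Real.norm_eq_abs,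
        Real.norm_eq_abs, abs_of_pos hsp, abs_of_pos hθp, abs_of_nonneg (by linarith)] at h7
      exact h7
    have h8 : θ * ‖z + β • v‖ ≤ θ * (‖z + β • ((1 - s) • v + s • g v)‖ + ε) := by
      nlinarith [mul_le_mul_of_nonneg_left h4 hs0, mul_pos hε hθp]
    exact le_of_mul_le_mul_left h8 hθp

end Crest.Agent.R074
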