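import Mathlib
import Crest.Agent.R074.Select
import Crest.Agent.R074.Core
import Crest.Agent.R074.Chord

/-!
A surjective isometry between unit spheres preserves `‖λ s - x‖`.
-/

set_option autoImplicit false

namespace Crest.Agent.R074

open Set Metric

variable {X Y : Type*} [NormedAddCommGroup X] [NormedSpace ℝ X]
  [NormedAddCommGroup Y] [NormedSpace ℝ Y]

lemma dist_of_bound (F : X → Y) (M : ℝ)
    (hiso : ∀ x x', ‖x‖ = 1 → ‖x'‖ = 1 → ‖F x - F x'‖ = ‖x - x'‖)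
    (hM : ∀ (lam : ℝ) (s x : X), 0 ≤ lam → lam ≤ 1 → ‖s‖ = 1 → ‖x‖ = 1 →
      |‖lam • s - x‖ - ‖lam • F s - F x‖| ≤ M)
    {x y : X} (hx : ‖x‖ = 1) (hy : ‖y‖ = 1) : Dist M x y (F x) (F y) := by
  have key : ∀ (x y : X) (a b : ℝ), ‖x‖ = 1 → ‖y‖ = 1 → 0 ≤ a → a ≤ b →
      |‖a • x - b • y‖ - ‖a • F x - b • F y‖| ≤ b * M := by
    intro x y a b hx hy ha hab
    rcases (ha.trans hab).eq_or_lt with hb | hb
    · have : a = 0 := by linarith
      subst hb this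
      simp
    · have h := hM (a / b) x y (by positivity) (by rwa [div_le_one hb]) hx hy
      have e1 : a • x - b • y = b • ((a / b) • x - y) := by
        rw [smul_sub, smul_smul, mul_div_cancel₀ _ hb.ne']
      have e2 : a • F x - b • F y = b • ((a / b) • F x - F y) := by
        rw [smul_sub, smul_smul, mul_div_cancel₀ _ hb.ne']
      rw [e1, e2, norm_smul, norm_smul, Real.norm_eq_abs, abs_of_pos hb, ← mul_sub, abs_mul,
        abs_of_pos hb]
      exact mul_le_mul_of_nonneg_left h hb.le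
  refine ⟨(hiso x y hx hy).symm, fun a b ha hb => ?_⟩
  rcases le_total a b with h | h
  · rw [max_eq_right h]; exact key x y a b hx hy ha h
  · rw [max_eq_left h, norm_sub_rev, norm_sub_rev (a • F x)]; exact key y x b a hy hx hb h

lemma defect_le (F : X → Y) (hF : ∀ x, ‖x‖ = 1 → ‖F x‖ = 1)
    (hiso : ∀ x x', ‖x‖ = 1 → ‖x'‖ = 1 → ‖F x - F x'‖ = ‖x - x'‖)
    {lam : ℝ} {s x : X} (h0 : 0 ≤ lam) (h1 : lam ≤ 1) (hs : ‖s‖ = 1) (hx : ‖x‖ = 1) :
    |‖lam • s - x‖ - ‖lam • F s - F x‖| ≤ 2 * lam ∧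
      |‖lam • s - x‖ - ‖lam • F s - F x‖| ≤ 2 * (1 - lam) := by
  have a1 := abs_norm_sub_norm_le (lam • s - x) (-x)
  have a2 := abs_norm_sub_norm_le (lam • F s - F x) (-F x)
  have a3 := abs_norm_sub_norm_le (lam • s - x) (s - x)
  have a4 := abs_norm_sub_norm_le (lam • F s - F x) (F s - F x)
  have e1 : lam • s - x - -x = lam • s := by abel
  have e2 : lam • F s - F x - -F x = lam • F s := by abel
  have e3 : lam • s - x - (s - x) = (lam - 1) • s := by module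
  have e4 : lam • F s - F x - (F s - F x) = (lam - 1) • F s := by module
  rw [e1, norm_smul, hs, norm_neg, hx, Real.norm_eq_abs, abs_of_nonneg h0, abs_le] at a1
  rw [e2, norm_smul, hF s hs, norm_neg, hF x hx, Real.norm_eq_abs, abs_of_nonneg h0, abs_le] at a2
  rw [e3, norm_smul, hs, Real.norm_eq_abs, abs_of_nonpos (by linarith : lam - 1 ≤ 0), abs_le] at a3
  rw [e4, norm_smul, hF s hs, hiso s x hs hx, Real.norm_eq_abs,
    abs_of_nonpos (by linarith : lam - 1 ≤ 0), abs_le] at a4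
  constructor <;> rw [abs_le] <;> constructor <;> linarith [a1.1, a1.2, a2.1, a2.2, a3.1, a3.2,
    a4.1, a4.2]

set_option maxHeartbeats 1000000 in
theorem contra_of_sup (F : X → Y) (G : Y → X) (hF : ∀ x, ‖x‖ = 1 → ‖F x‖ = 1)
    (hG : ∀ y, ‖y‖ = 1 → ‖G y‖ = 1) (hFG : ∀ y, ‖y‖ = 1 → F (G y) = y)
    (hiso : ∀ x x', ‖x‖ = 1 → ‖x'‖ = 1 → ‖F x - F x'‖ = ‖x - x'‖) (M : ℝ) (hM0 : 0 < M)
    (hM : ∀ (lam : ℝ) (s x : X), 0 ≤ lam → lam ≤ 1 → ‖s‖ = 1 → ‖x‖ = 1 →
      |‖lam • s - x‖ - ‖lam • F s - F x‖| ≤ M)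
    (hsup : ∀ α > 0, ∃ (lam : ℝ) (s x : X), 0 ≤ lam ∧ lam ≤ 1 ∧ ‖s‖ = 1 ∧ ‖x‖ = 1 ∧
      M - α ≤ |‖lam • s - x‖ - ‖lam • F s - F x‖|) : False := by
  have hM1 : M ≤ 1 := by
    refine le_of_forall_pos_le_add fun α hα => ?_
    obtain ⟨lam, s, x, h0, h1, hs, hx, h⟩ := hsup α hα
    have := defect_le F hF hiso h0 h1 hs hx
    linarith [this.1, this.2]
  have hFc : ContinuousOn F (sphere 0 1) := by
    refine (LipschitzOnWith.of_dist_le_mul (K := 1) fun x hx y hy => ?_).continuousOn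
    rw [dist_eq_norm, dist_eq_norm, hiso x y (by simpa using hx) (by simpa using hy)]
    simp
  have hGc : ContinuousOn G (sphere 0 1) := by
    refine (LipschitzOnWith.of_dist_le_mul (K := 1) fun x hx y hy => ?_).continuousOn
    have hx' : ‖x‖ = 1 := by simpa using hx
    have hy' : ‖y‖ = 1 := by simpa using hy
    rw [dist_eq_norm, dist_eq_norm, ← hiso _ _ (hG x hx') (hG y hy'), hFG x hx', hFG y hy']
    simp
  have hMM : M ^ 2 ≤ M := by nlinarith
  have hMMM : M ^ 3 ≤ M ^ 2 := by nlinarith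
  have hM2 : 0 < M ^ 2 := by positivity
  have hM3 : 0 < M ^ 3 := by positivity
  obtain ⟨α0, hα0, H⟩ := select (X := X) (20 / M) (M ^ 2 / 128) (24 / M) (M ^ 3 / 6144)
    (by rw [le_div_iff₀ hM0]; linarith) (by positivity) (by positivity) (by positivity)
    (by linarith)
  set α := min α0 (M ^ 2 / 128) with hα
  have hαp : 0 < α := lt_min hα0 (by positivity)
  have hαM : α ≤ M ^ 2 / 128 := min_le_right _ _
  obtain ⟨lam, s, x, h0, h1, hs, hx, hxd⟩ := hsup α hαp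
  have hdef := defect_le F hF hiso h0 h1 hs hx
  have hl0 : M / 4 ≤ lam := by linarith [hdef.1]
  have hl1 : M / 4 ≤ 1 - lam := by linarith [hdef.2]
  set z := lam • s with hz
  set w := lam • F s with hw
  have hzn : ‖z‖ = lam := by rw [hz, norm_smul, hs, Real.norm_eq_abs, abs_of_nonneg h0, mul_one]
  have hwn : ‖w‖ = lam := by
    rw [hw, norm_smul, hF s hs, Real.norm_eq_abs, abs_of_nonneg h0, mul_one]
  have hz1 : ‖z‖ < 1 := by linarith
  have hw1 : ‖w‖ < 1 := by linarith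
  let τ : X → X := fun q => G (exitPt w (w - F q))
  have hτ : ∀ q, ‖q‖ = 1 → ‖τ q‖ = 1 ∧
      (∃ u : ℝ, 0 ≤ u ∧ u ≤ 1 ∧ w = (1 - u) • F (τ q) + u • F q) ∧
      ‖q - τ q‖ = ‖F q - w‖ + ‖w - F (τ q)‖ := by
    intro q hq
    obtain ⟨c1, c2, c3⟩ := chord_spec hw1 (hF q hq)
    have e : F (τ q) = exitPt w (w - F q) := hFG _ c1
    refine ⟨hG _ c1, by rwa [e], ?_⟩
    rw [← hiso q (τ q) hq (hG _ c1), e, c3]
  have hτc : ContinuousOn τ (sphere 0 1) := by
    refine hGc.comp ((continuousOn_exitPt hw1).comp (continuousOn_const.sub hFc) ?_) ?_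
    · exact fun q hq => sub_ne_zero_of_norm hw1 (hF q (by simpa using hq))
    · intro q hq
      simpa using (chord_spec hw1 (hF q (by simpa using hq))).1
  obtain ⟨p0, hp0, hp0d⟩ : ∃ p0, ‖p0‖ = 1 ∧ M - α ≤ ‖z - p0‖ - ‖w - F p0‖ := by
    rcases le_abs.mp hxd with h | h
    · exact ⟨x, hx, h⟩
    · obtain ⟨c1, -, c3⟩ := hτ x hx
      refine ⟨τ x, c1, ?_⟩
      have := norm_sub_le_norm_sub_add_norm_sub x z (τ x)
      rw [norm_sub_rev x z] at this
      rw [norm_sub_rev (F x) w] at c3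
      linarith
  let g : X → X := fun v => nrm (z - τ (exitPt z v))
  have hgc : ContinuousOn g {0}ᶜ := by
    have hQ : MapsTo (exitPt z) {0}ᶜ (sphere 0 1) := fun v hv => by
      simpa using norm_exitPt hz1 hv
    refine continuousOn_nrm.comp (continuousOn_const.sub
      (hτc.comp (continuousOn_exitPt hz1) hQ)) ?_
    exact fun v hv => sub_ne_zero_of_norm hz1 (hτ _ (norm_exitPt hz1 hv)).1
  set D0 := nrm (z - p0) with hD0
  have hdist : ∀ p : X, ‖p‖ = 1 → 1 - lam ≤ ‖z - p‖ ∧ ‖z - p‖ ≤ 2 := by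
    intro p hp
    have h2 := norm_sub_norm_le p z
    have h3 := norm_sub_le z p
    rw [norm_sub_rev] at h2
    constructor <;> linarith
  -- thickness of the set of near-extremal directions
  have thick : ∀ (v : X) (γ : ℝ) (φ : X →L[ℝ] ℝ), 0 ≤ γ → γ ≤ 1 / 2 → ‖v‖ ≤ 1 → ‖φ‖ ≤ 1 →
      1 - γ ≤ φ v → 1 - γ ≤ φ D0 → v ≠ 0 ∧ 1 - γ ≤ ‖v‖ ∧ ∃ A : ℝ, 0 ≤ A ∧
        exitPt z v = z + A • nrm v ∧ ‖z - exitPt z v‖ = A ∧
        M - (α + 4 * γ) ≤ ‖F (exitPt z v) - w‖ - A := by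
    intro v γ φ hγ0 hγ1 hv hφ hφv hφ0
    have hvn : 1 - γ ≤ ‖v‖ := hφv.trans (clm_le_norm hφ v)
    have hv0 : v ≠ 0 := by
      intro h
      rw [h, norm_zero] at hvn
      linarith
    obtain ⟨A, hA0, hA⟩ := exists_exitPt_eq_nrm hz1 hv0
    have hq := norm_exitPt hz1 hv0
    have hAn : ‖z - exitPt z v‖ = A := by
      rw [hA, sub_add_cancel_left, norm_neg, norm_smul, norm_nrm hv0, Real.norm_eq_abs,
        abs_of_nonneg hA0, mul_one]
    refine ⟨hv0, hvn, A, hA0, hA, hAn, ?_⟩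
    have hφD : 1 - γ ≤ φ (nrm v) := by
      have h2 : φ v = ‖v‖ * φ (nrm v) := by
        conv_lhs => rw [← norm_smul_nrm v, map_smul, smul_eq_mul]
      by_contra h3
      push Not at h3
      have h4 : 0 < ‖v‖ := by linarith
      have h5 := mul_lt_mul_of_pos_left h3 h4
      have h6 : ‖v‖ * (1 - γ) ≤ 1 * (1 - γ) := mul_le_mul_of_nonneg_right hv (by linarith)
      linarith
    have e1 : exitPt z v - p0 = A • nrm v + ‖z - p0‖ • D0 := by
      rw [hD0, norm_smul_nrm, hA]; abel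
    have h2 := clm_le_norm hφ (exitPt z v - p0)
    conv_lhs at h2 => rw [e1, map_add, map_smul, map_smul, smul_eq_mul, smul_eq_mul]
    rw [← hiso _ _ hq hp0] at h2
    have h3 := norm_sub_le_norm_sub_add_norm_sub (F (exitPt z v)) w (F p0)
    have h4 := mul_le_mul_of_nonneg_left hφD hA0
    have h5 := mul_le_mul_of_nonneg_left hφ0 (norm_nonneg (z - p0))
    have h6 := mul_le_mul_of_nonneg_right (hdist p0 hp0).2 hγ0
    have h7 := mul_le_mul_of_nonneg_right (hAn ▸ (hdist _ hq).2) hγ0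
    linarith only [h2, h3, h4, h5, h6, h7, hp0d]
  have hback : ∀ q, ‖q‖ = 1 → ‖z - τ q‖ - ‖w - F (τ q)‖ ≤ M := fun q hq =>
    (le_abs_self _).trans (hM lam s (τ q) h0 h1 hs (hτ q hq).1)
  obtain ⟨v, φ, hv, hφ, hφv, hφ0, hdom⟩ := H z D0 g α hαp (min_le_left _ _) hz1.le
    (norm_nrm (sub_ne_zero_of_norm hz1 hp0)) hgc (fun v => norm_nrm_le _) (by
      intro v γ φ hγ0 hγ1 hv hφ hφv hφ0
      obtain ⟨hv0, hvn, A, hA0, hA, hAn, hext⟩ := thick v γ φ hγ0 hγ1 hv hφ hφv hφ0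
      have hq := norm_exitPt hz1 hv0
      obtain ⟨c1, -, c3⟩ := hτ _ hq
      obtain ⟨ψ, hψ1, hψ2⟩ := exists_dual_vector'' ℝ (exitPt z v - τ (exitPt z v))
      have e1 : exitPt z v - τ (exitPt z v) =
          A • nrm v + ‖z - τ (exitPt z v)‖ • g v := by
        simp only [g]
        rw [norm_smul_nrm]
        conv_lhs => enter [1]; rw [hA]
        abel
      have hψ3 : ψ (exitPt z v - τ (exitPt z v)) = ‖exitPt z v - τ (exitPt z v)‖ := by
        simpa using hψ2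
      conv_lhs at hψ3 => rw [e1, map_add, map_smul, map_smul, smul_eq_mul, smul_eq_mul]
      have b1 := hback _ hq
      have b2 : 0 ≤ 1 - ψ (nrm v) := sub_nonneg.mpr (clm_le_one hψ1 (norm_nrm_le v))
      have b3 : 0 ≤ 1 - ψ (g v) := sub_nonneg.mpr (clm_le_one hψ1 (norm_nrm_le _))
      have b4 : M / 4 ≤ A := by linarith [(hdist _ hq).1]
      have b5 : M / 4 ≤ ‖z - τ (exitPt z v)‖ := by linarith [(hdist _ c1).1]
      have b6 := mul_le_mul_of_nonneg_right b4 b2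
      have b7 := mul_le_mul_of_nonneg_right b5 b3
      have b8 : 0 ≤ M / 4 * (1 - ψ (nrm v)) := by positivity
      have b9 : 0 ≤ M / 4 * (1 - ψ (g v)) := by positivity
      have b10 : M / 4 * (1 - ψ (nrm v)) ≤ α + 4 * γ := by
        linarith only [b6, b7, b9, b1, c3, hext, hψ3]
      have b11 : M / 4 * (1 - ψ (g v)) ≤ α + 4 * γ := by
        linarith only [b6, b7, b8, b1, c3, hext, hψ3]
      have b12 := clm_le_norm hψ1 (nrm v - v)
      rw [norm_nrm_sub hv0 hv, map_sub] at b12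
      have b13 : M * γ ≤ 1 * γ := mul_le_mul_of_nonneg_right hM1 hγ0
      refine ⟨ψ, hψ1, ?_, ?_⟩
      · have : 1 - ψ v ≤ 20 / M * (α + γ) := by
          rw [div_mul_eq_mul_div, le_div_iff₀ hM0]
          have b14 : M * (1 - ψ v) ≤ M * (1 - ψ (nrm v) + γ) :=
            mul_le_mul_of_nonneg_left (by linarith) hM0.le
          linarith only [b14, b13, b10, hγ0, hαp]
        linarith
      · have : 1 - ψ (g v) ≤ 20 / M * (α + γ) := by
          rw [div_mul_eq_mul_div, le_div_iff₀ hM0]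
          linarith only [b11, hγ0, hαp]
        linarith)
  obtain ⟨hv0, hvn, A, hA0, hA, hAn, hext⟩ := thick v _ φ (by positivity) (by linarith) hv hφ hφv hφ0
  have hq := norm_exitPt hz1 hv0
  obtain ⟨c1, ⟨u, hu0, hu1, hu⟩, c3⟩ := hτ _ hq
  have hD : ∀ {x y : X}, ‖x‖ = 1 → ‖y‖ = 1 → Dist M x y (F x) (F y) :=
    fun hx hy => dist_of_bound F M hiso hM hx hy
  refine core_contra s (τ (exitPt z v)) (exitPt z v) (nrm v) (g v) (F s) (F (τ (exitPt z v)))
    (F (exitPt z v)) lam u A ‖z - τ (exitPt z v)‖ M (M ^ 2 / 64) (M ^ 2 / 64) (M / 16) (24 / M)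
    hs c1 hq (hF _ hs) (hF _ c1) (hF _ hq) (norm_nrm hv0)
    (norm_nrm (sub_ne_zero_of_norm hz1 c1)) (hD hs c1) (hD hs hq) (hD hq c1) (by linarith)
    (by linarith) hu0 hu1 hA0 (norm_nonneg _) hA ?_ hu (by linarith) ?_ ?_ (by positivity)
    (by positivity) (by positivity) (by linarith) hM1 (by linarith)
  · simp only [g]
    rw [norm_smul_nrm, ← hz, sub_sub_cancel]
  · rw [div_mul_eq_mul_div, le_div_iff₀ hM0]; linarith
  · intro t ht0 ht1 β hβ
    have d1 := hdom t ht0 ht1 β hβ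
    have d2 := norm_add_smul_le z (nrm v) v β β hv
    have d3 := norm_add_smul_le z ((1 - t) • v + t • g v) ((1 - t) • nrm v + t • g v) β β
      ((norm_comb_le _ _ (by linarith) ht0 _ _).trans (by
        have := mul_le_mul_of_nonneg_left (norm_nrm_le v) (show 0 ≤ 1 - t by linarith)
        have := mul_le_mul_of_nonneg_left (norm_nrm_le (z - τ (exitPt z v))) ht0
        simp only [g]
        linarith))
    have d4 : ‖nrm v - v‖ ≤ M ^ 3 / 6144 := by rw [norm_nrm_sub hv0 hv]; linarith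
    have d5 : ‖(1 - t) • v + t • g v - ((1 - t) • nrm v + t • g v)‖ ≤ M ^ 3 / 6144 := by
      have : (1 - t) • v + t • g v - ((1 - t) • nrm v + t • g v) = -((1 - t) • (nrm v - v)) := by
        module
      rw [this, norm_neg, norm_smul, Real.norm_eq_abs, abs_of_nonneg (by linarith)]
      have := mul_le_mul_of_nonneg_right (show 1 - t ≤ 1 by linarith) (norm_nonneg (nrm v - v))
      linarith
    have d6 : 24 / M * (M ^ 3 / 6144) = M ^ 2 / 256 := by field_simp; ring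
    have d7 := mul_le_mul hβ d4 (norm_nonneg _) (by positivity)
    have d8 := mul_le_mul hβ d5 (norm_nonneg _) (by positivity)
    rw [sub_self, abs_zero] at d2 d3
    rw [← hz]
    linarith only [d1, d2, d3, d6, d7, d8]

theorem norm_smul_sub_eq (F : X → Y) (G : Y → X) (hF : ∀ x, ‖x‖ = 1 → ‖F x‖ = 1)
    (hG : ∀ y, ‖y‖ = 1 → ‖G y‖ = 1) (hFG : ∀ y, ‖y‖ = 1 → F (G y) = y)
    (hiso : ∀ x x', ‖x‖ = 1 → ‖x'‖ = 1 → ‖F x - F x'‖ = ‖x - x'‖)
    {x y : X} (hx : ‖x‖ = 1) (hy : ‖y‖ = 1) {a b : ℝ} (ha : 0 ≤ a) (hb : 0 ≤ b) :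
    ‖a • F x - b • F y‖ = ‖a • x - b • y‖ := by
  let S : Set ℝ := {r | ∃ (lam : ℝ) (s x : X), 0 ≤ lam ∧ lam ≤ 1 ∧ ‖s‖ = 1 ∧ ‖x‖ = 1 ∧
    r = |‖lam • s - x‖ - ‖lam • F s - F x‖|}
  have hne : S.Nonempty := ⟨_, 0, x, x, le_rfl, zero_le_one, hx, hx, rfl⟩
  have hbd : BddAbove S := by
    refine ⟨2, ?_⟩
    rintro r ⟨lam, s, x, h0, h1, hs, hx, rfl⟩
    linarith [(defect_le F hF hiso h0 h1 hs hx).1]
  have hM : ∀ (lam : ℝ) (s x : X), 0 ≤ lam → lam ≤ 1 → ‖s‖ = 1 → ‖x‖ = 1 →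
      |‖lam • s - x‖ - ‖lam • F s - F x‖| ≤ sSup S := fun lam s x h0 h1 hs hx =>
    le_csSup hbd ⟨lam, s, x, h0, h1, hs, hx, rfl⟩
  have hM0 : sSup S ≤ 0 := by
    by_contra h
    push Not at h
    refine contra_of_sup F G hF hG hFG hiso (sSup S) h hM fun α hα => ?_
    obtain ⟨r, ⟨lam, s, x, h0, h1, hs, hx, rfl⟩, hr⟩ :=
      exists_lt_of_lt_csSup hne (show sSup S - α < sSup S by linarith)
    exact ⟨lam, s, x, h0, h1, hs, hx, hr.le⟩
  have h := (dist_of_bound F 0 hiso (fun lam s x h0 h1 hs hx =>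
    (hM lam s x h0 h1 hs hx).trans hM0) hx hy).2 a b ha hb
  rw [mul_zero, abs_nonpos_iff] at h
  linarith

end Crest.Agent.R074
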